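import Mathlib

/-!
An explicit instance of Uniform Sparsest Cut on five vertices (the complete bipartite graph with
parts of sizes two and three, unit capacities) for which the Goemans-Linial relaxation is
smaller than the value of the sparsest cut by a factor of at least `11/10`.
-/

namespace Vale.Agent.Results.P318.FivePointGap

open Finset

/-- Coordinates of the five points (one point per row). -/
noncomputable def coords : Fin 5 → Fin 5 → ℝ :=
  !![7/4, 1, 1, 1, 0; -7/4, 1, 1, 1, 0; 0, 3, 0, 0, 0; 0, 0, 3, 0, 0; 0, 0, 0, 3, 0]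

/-- The five points. -/
noncomputable def pt (i : Fin 5) : EuclideanSpace ℝ (Fin 5) := WithLp.toLp 2 (coords i)

/-- Unit capacities on the complete bipartite graph with parts `{0, 1}` and `{2, 3, 4}`. -/
noncomputable def cap (i j : Fin 5) : ℝ := if (i.val < 2 ↔ j.val < 2) then 0 else 1

/-- The squared distances of the five points. -/
noncomputable def sqd : Fin 5 → Fin 5 → ℝ :=
  !![0, 49/4, 145/16, 145/16, 145/16; 49/4, 0, 145/16, 145/16, 145/16;
     145/16, 145/16, 0, 18, 18; 145/16, 145/16, 18, 0, 18; 145/16, 145/16, 18, 18, 0]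

theorem dist_pt (i j : Fin 5) : ‖pt i - pt j‖ ^ 2 = sqd i j := by
  rw [EuclideanSpace.real_norm_sq_eq]
  fin_cases i <;> fin_cases j <;>
    simp [pt, coords, sqd, Fin.sum_univ_five] <;> norm_num

theorem sqd_triangle (i j k : Fin 5) : sqd i k ≤ sqd i j + sqd j k := by
  fin_cases i <;> fin_cases j <;> fin_cases k <;> simp [sqd] <;> norm_num

theorem sum_sqd : (∑ i : Fin 5, ∑ j : Fin 5, if i < j then sqd i j else 0) = 965 / 8 := by
  simp [Fin.sum_univ_five, sqd]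
  norm_num

theorem sum_cap_sqd :
    (∑ i : Fin 5, ∑ j : Fin 5, if i < j then cap i j * sqd i j else 0) = 435 / 8 := by
  simp [Fin.sum_univ_five, sqd, cap]
  norm_num

/-- Every cut of the graph has ratio at least `1/2` (in natural numbers). -/
theorem cut_nat : ∀ S : Finset (Fin 5), S.Nonempty → S ≠ Finset.univ →
    S.card * (5 - S.card) ≤
      2 * ∑ i ∈ S, ∑ j ∈ Sᶜ, (if (i.val < 2 ↔ j.val < 2) then 0 else 1 : ℕ) := by
  decide

theorem cap_cast (i j : Fin 5) :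
    cap i j = ((if (i.val < 2 ↔ j.val < 2) then 0 else 1 : ℕ) : ℝ) := by
  unfold cap
  split_ifs <;> simp

theorem result : ∃ (c : Fin 5 → Fin 5 → ℝ) (x : Fin 5 → EuclideanSpace ℝ (Fin 5)),
    (∀ i j, 0 ≤ c i j) ∧ (∀ i j, c i j = c j i) ∧ (∀ i, c i i = 0) ∧
    (∀ i j k, ‖x i - x k‖ ^ 2 ≤ ‖x i - x j‖ ^ 2 + ‖x j - x k‖ ^ 2) ∧
    0 < (∑ i, ∑ j, if i < j then ‖x i - x j‖ ^ 2 else 0) ∧
    (∀ S : Finset (Fin 5), S.Nonempty → S ≠ Finset.univ →
      11 / 10 * ((∑ i, ∑ j, if i < j then c i j * ‖x i - x j‖ ^ 2 else 0) /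
          (∑ i, ∑ j, if i < j then ‖x i - x j‖ ^ 2 else 0)) ≤
        (∑ i ∈ S, ∑ j ∈ Sᶜ, c i j) / ((S.card : ℝ) * (5 - (S.card : ℝ)))) ∧
    (∀ y : Fin 5 → EuclideanSpace ℝ (Fin 5),
      (∀ i j k, ‖y i - y k‖ ^ 2 ≤ ‖y i - y j‖ ^ 2 + ‖y j - y k‖ ^ 2) →
      (∑ i, ∑ j, if i < j then ‖y i - y j‖ ^ 2 else 0) ≤
        3 * ∑ i, ∑ j, if i < j then c i j * ‖y i - y j‖ ^ 2 else 0) := by
  refine ⟨cap, pt, ?_, ?_, ?_, ?_, ?_, ?_, ?_⟩
  · intro i j
    unfold cap
    split_ifs <;> norm_num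
  · intro i j
    fin_cases i <;> fin_cases j <;> simp [cap]
  · intro i
    simp [cap]
  · intro i j k
    simp only [dist_pt]
    exact sqd_triangle i j k
  · simp only [dist_pt]
    rw [sum_sqd]
    norm_num
  · intro S hne hnu
    simp only [dist_pt]
    rw [sum_cap_sqd, sum_sqd]
    have hnat := cut_nat S hne hnu
    have hc1 : 1 ≤ S.card := Finset.card_pos.mpr hne
    have hc5 : S.card < 5 := by
      have h := Finset.card_lt_card (Finset.ssubset_univ_iff.mpr hnu)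
      rw [Finset.card_univ, Fintype.card_fin] at h
      exact h
    have hcast : (∑ i ∈ S, ∑ j ∈ Sᶜ, cap i j) =
        ((∑ i ∈ S, ∑ j ∈ Sᶜ, (if (i.val < 2 ↔ j.val < 2) then 0 else 1 : ℕ) : ℕ) : ℝ) := by
      push_cast
      apply Finset.sum_congr rfl
      intro i _
      apply Finset.sum_congr rfl
      intro j _
      rw [cap_cast]
      push_cast
      rfl
    rw [hcast]
    have hnat' : ((S.card * (5 - S.card) : ℕ) : ℝ) ≤
        ((2 * ∑ i ∈ S, ∑ j ∈ Sᶜ, (if (i.val < 2 ↔ j.val < 2) then 0 else 1 : ℕ) : ℕ) : ℝ) := by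
      exact_mod_cast hnat
    have hsub : ((5 - S.card : ℕ) : ℝ) = 5 - (S.card : ℝ) := by
      rw [Nat.cast_sub (le_of_lt hc5)]
      norm_num
    rw [Nat.cast_mul, hsub, Nat.cast_mul] at hnat'
    have hc1' : (1 : ℝ) ≤ (S.card : ℝ) := by exact_mod_cast hc1
    have hc5' : (S.card : ℝ) ≤ 4 := by
      have : S.card ≤ 4 := by omega
      exact_mod_cast this
    have hpos : (0 : ℝ) < (S.card : ℝ) * (5 - (S.card : ℝ)) := by nlinarith
    rw [le_div_iff₀ hpos]
    norm_num at hnat' ⊢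
    nlinarith
  · intro y hy
    have e21 : ‖y 2 - y 1‖ = ‖y 1 - y 2‖ := norm_sub_rev _ _
    have e20 : ‖y 2 - y 0‖ = ‖y 0 - y 2‖ := norm_sub_rev _ _
    have e30 : ‖y 3 - y 0‖ = ‖y 0 - y 3‖ := norm_sub_rev _ _
    have h1 := hy 0 2 1
    have h2 := hy 2 0 3
    have h3 := hy 2 1 4
    have h4 := hy 3 0 4
    rw [e21] at h1 h3
    rw [e20] at h2
    rw [e30] at h4
    have n04 := sq_nonneg ‖y 0 - y 4‖
    have n13 := sq_nonneg ‖y 1 - y 3‖
    have n14 := sq_nonneg ‖y 1 - y 4‖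
    simp [Fin.sum_univ_five, cap]
    linarith

end Vale.Agent.Results.P318.FivePointGap
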